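import Mathlib
import Vale.Agent.P344.Defs
import Vale.Agent.P344.FORM
import Vale.Agent.P344.NF
import Vale.Agent.P344.ELIM
import Vale.Agent.P344.ROWS
import Vale.Agent.P344.SCAL
import Vale.Agent.P344.EX
import Vale.Agent.P344.GAL
import Vale.Agent.P344.POW2

namespace Vale.Agent.Results.P344.LinearLowerBound

open Vale.P344

/-- `L(n)`: the least number of gates of a linear circuit computing `F_n`. -/
noncomputable def L (n : ℕ) : ℕ :=
  sInf {m : ℕ | ∃ (C : List Gate) (out : Fin n → ℕ), Computes n C out ∧ C.length = m}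

theorem length_eq (C : List Gate) : adds C + muls C = C.length := by
  induction C with
  | nil => rfl
  | cons g C ih => cases g <;> simp only [adds, muls, List.length_cons] <;> omega

theorem L_spec (n : ℕ) (hn : 2 ≤ n) :
    ∃ (C : List Gate) (out : Fin n → ℕ), Computes n C out ∧ C.length = L n := by
  have hne : {m : ℕ | ∃ (C : List Gate) (out : Fin n → ℕ),
      Computes n C out ∧ C.length = m}.Nonempty := by
    obtain ⟨C, out, h⟩ := EX.thm n hn
    exact ⟨C.length, C, out, h, rfl⟩
  exact Nat.sInf_mem hne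

/-- Lower bounds for linear circuits computing the discrete Fourier transform. -/
theorem result (n : ℕ) (hn : 2 ≤ n) :
    -- every circuit computing `F_n`
    (∀ (C : List Gate) (out : Fin n → ℕ), Computes n C out →
      3 * n ≤ adds C + 3 + n / n.minFac ∧ (n - 1) / 2 ≤ 2 * muls C ∧
      (n.Prime → n ≤ 2 * muls C + 2) ∧
      (∀ k : ℕ, n = 2 ^ k → n ≤ 2 * muls C + 2 * k) ∧
      (∀ a : ℕ, a.Coprime n → ∀ T : Finset ℕ,
        (∀ r < n, ∃ t ∈ T, t < n ∧ ∃ k : ℕ, r = (a ^ k * t) % n) → n ≤ 2 * muls C + T.card)) ∧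
    -- the least number of gates is attained
    (∃ (C : List Gate) (out : Fin n → ℕ), Computes n C out ∧ C.length = L n) ∧
    -- bounds for `L(n)`
    11 * n ≤ 4 * L n + 14 ∧ (n.Prime → 7 * n ≤ 2 * L n + 10) ∧
    (∀ k : ℕ, n = 2 ^ k → 3 * n ≤ L n + k + 3) := by
  have main : ∀ (C : List Gate) (out : Fin n → ℕ), Computes n C out →
      3 * n ≤ adds C + 3 + n / n.minFac ∧ (n - 1) / 2 ≤ 2 * muls C ∧
      (n.Prime → n ≤ 2 * muls C + 2) ∧
      (∀ k : ℕ, n = 2 ^ k → n ≤ 2 * muls C + 2 * k) ∧
      (∀ a : ℕ, a.Coprime n → ∀ T : Finset ℕ,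
        (∀ r < n, ∃ t ∈ T, t < n ∧ ∃ k : ℕ, r = (a ^ k * t) % n) → n ≤ 2 * muls C + T.card) := by
    intro C out h
    have hform := FORM.thm n C out h
    have hout : ∀ j : Fin n, ∃ p : ℕ, (forms n C).getD p 0 = fourier n j :=
      fun j => ⟨out j, hform j⟩
    refine ⟨?_, SCAL.thm n C hn hout, fun hp => GAL.thm n C hp hout, ?_,
      fun a ha T hT => GAL.general n C hn hout a ha T hT⟩
    · obtain ⟨L, hL, hlen, hav⟩ := NF.thm n C (by omega)
      have h1 := ROWS.thm ELIM.thm n L hn hL (fun j => by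
        obtain ⟨u, hu, hm⟩ := hav (out j)
        rw [hform j] at hm
        exact ⟨u, hu, hm⟩)
      rw [hlen] at h1
      exact h1
    · rintro k rfl
      have hk : 1 ≤ k := by
        by_contra hc
        have : k = 0 := by omega
        subst this
        omega
      exact POW2.thm k C hk hout
  refine ⟨main, L_spec n hn, ?_⟩
  obtain ⟨C, out, hC, hlen⟩ := L_spec n hn
  obtain ⟨h1, h2, h3, h4, -⟩ := main C out hC
  have h5 := length_eq C
  refine ⟨?_, ?_, ?_⟩
  · have h6 : n / n.minFac ≤ n / 2 :=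
      Nat.div_le_div_left (Nat.minFac_prime (by omega)).two_le (by norm_num)
    omega
  · intro hp
    have h6 := h3 hp
    rw [hp.minFac_eq, Nat.div_self hp.pos] at h1
    omega
  · intro k hk
    have h6 := h4 k hk
    have h7 : n / n.minFac ≤ n / 2 :=
      Nat.div_le_div_left (Nat.minFac_prime (by omega)).two_le (by norm_num)
    omega

end Vale.Agent.Results.P344.LinearLowerBound
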